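import Vale.Agent.P325.H111.K2.Stmts

/-!
# The vector valued lemma of Bonami
-/

namespace Vale.Agent.P325.K2.H25

open Finset

section

variable {ι : Type} [Fintype ι] [DecidableEq ι]

theorem sg_mul_self (b : Bool) : sg b * sg b = 1 := by
  cases b <;> simp [sg]

theorem sg_sq (b : Bool) : sg b ^ 2 = 1 := by
  rw [sq, sg_mul_self]

theorem sg_not (b : Bool) : sg (!b) = - sg b := by
  cases b <;> simp [sg]

theorem chi_insert {S : Finset ι} {i : ι} (h : i ∉ S) (x : ι → Bool) :
    chi (insert i S) x = sg (x i) * chi S x := by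
  unfold chi
  rw [prod_insert h]

theorem flp_same (x : ι → Bool) (i : ι) : flp x i i = !x i := by
  simp [flp]

theorem flp_ne (x : ι → Bool) {i j : ι} (h : j ≠ i) : flp x i j = x j := by
  simp [flp, h]

theorem flp_flp (x : ι → Bool) (i : ι) : flp (flp x i) i = x := by
  funext j
  by_cases h : j = i
  · subst h; simp [flp]
  · rw [flp_ne _ h, flp_ne _ h]

theorem chi_flp {S : Finset ι} {i : ι} (h : i ∉ S) (x : ι → Bool) :
    chi S (flp x i) = chi S x := by
  unfold chi
  refine prod_congr rfl fun j hj => ?_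
  rw [flp_ne]
  rintro rfl
  exact h hj

/-- The flip of a bit as a permutation. -/
def flpEquiv (i : ι) : (ι → Bool) ≃ (ι → Bool) where
  toFun x := flp x i
  invFun x := flp x i
  left_inv x := flp_flp x i
  right_inv x := flp_flp x i

/-- The average of a sign times a function that does not depend on the sign. -/
theorem Ex_sg_mul (i : ι) (u : (ι → Bool) → ℝ) (hu : ∀ x, u (flp x i) = u x) :
    Ex (fun x : ι → Bool => sg (x i) * u x) = 0 := by
  have h1 := Ex_equiv (flpEquiv i) fun x : ι → Bool => sg (x i) * u x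
  have h2 : (fun x : ι → Bool => sg (flpEquiv i x i) * u (flpEquiv i x)) =
      fun x => - (sg (x i) * u x) := by
    funext x
    show sg (flp x i i) * u (flp x i) = _
    rw [flp_same, sg_not, hu, neg_mul]
  rw [h2, Ex_neg] at h1
  linarith

/-- Cauchy-Schwarz for averages. -/
theorem Ex_mul_sq_le {α : Type} [Fintype α] (f g : α → ℝ) :
    Ex (fun x => f x * g x) ^ 2 ≤ Ex (fun x => f x ^ 2) * Ex fun x => g x ^ 2 := by
  simp only [Ex]
  rw [div_pow, div_mul_div_comm, ← sq]
  exact div_le_div_of_nonneg_right (sum_mul_sq_le_sq_mul_sq univ f g) (sq_nonneg _)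

/-- The polynomial with the coefficients `a`, for subsets of `A`. -/
noncomputable def pl (A : Finset ι) (a : Finset ι → ℝ) (x : ι → Bool) : ℝ :=
  ∑ S ∈ A.powerset, (1 / Real.sqrt 3) ^ #S * a S * chi S x

theorem pl_flp {A : Finset ι} {i : ι} (h : i ∉ A) (a : Finset ι → ℝ) (x : ι → Bool) :
    pl A a (flp x i) = pl A a x := by
  unfold pl
  refine sum_congr rfl fun S hS => ?_
  rw [chi_flp fun hi => h (mem_powerset.1 hS hi)]

theorem pl_insert {A : Finset ι} {i : ι} (h : i ∉ A) (a : Finset ι → ℝ) (x : ι → Bool) :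
    pl (insert i A) a x =
      pl A a x + 1 / Real.sqrt 3 * sg (x i) * pl A (fun S => a (insert i S)) x := by
  unfold pl
  rw [sum_powerset_insert h, mul_sum]
  congr 1
  refine sum_congr rfl fun S hS => ?_
  have hi : i ∉ S := fun hi => h (mem_powerset.1 hS hi)
  rw [chi_insert hi, card_insert_of_notMem hi, pow_succ]
  ring

/-- The inequality for coefficients, by induction. -/
theorem bonami_aux {J : Type} [Fintype J] (A : Finset ι) : ∀ a : J → Finset ι → ℝ,
    (Ex fun x : ι → Bool => (∑ j, pl A (a j) x ^ 2) ^ 2) ≤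
      (∑ S ∈ A.powerset, ∑ j, a j S ^ 2) ^ 2 := by
  induction A using Finset.induction_on with
  | empty =>
    intro a
    simp only [pl, powerset_empty, sum_singleton, card_empty, pow_zero, one_mul, chi, prod_empty,
      mul_one]
    rw [Ex_const]
  | insert i A hi ih =>
    intro a
    set ρ : ℝ := 1 / Real.sqrt 3 with hρ
    have hρ2 : ρ ^ 2 = 1 / 3 := by
      rw [hρ, div_pow, Real.sq_sqrt (by norm_num)]; norm_num
    set U : (ι → Bool) → ℝ := fun x => ∑ j, pl A (a j) x ^ 2 with hU
    set W : (ι → Bool) → ℝ := fun x => ∑ j, pl A (fun S => a j (insert i S)) x ^ 2 with hW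
    set V : (ι → Bool) → ℝ := fun x => ∑ j, pl A (a j) x * pl A (fun S => a j (insert i S)) x
      with hV
    have e1 : ∀ x, (∑ j, pl (insert i A) (a j) x ^ 2) ^ 2 =
        ((U x + 1 / 3 * W x) ^ 2 + 4 / 3 * V x ^ 2) +
          sg (x i) * (4 * ρ * V x * (U x + 1 / 3 * W x)) := by
      intro x
      have e2 : (∑ j, pl (insert i A) (a j) x ^ 2) =
          U x + 2 * ρ * sg (x i) * V x + ρ ^ 2 * W x := by
        simp only [hU, hV, hW, mul_sum]
        rw [← sum_add_distrib, ← sum_add_distrib]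
        refine sum_congr rfl fun j _ => ?_
        rw [pl_insert hi]
        have := sg_sq (x i)
        linear_combination (ρ ^ 2 * pl A (fun S => a j (insert i S)) x ^ 2) * this
      rw [e2, hρ2]
      have := sg_sq (x i)
      linear_combination (4 * ρ ^ 2 * V x ^ 2) * this + (4 * V x ^ 2) * hρ2
    have e3 : (Ex fun x => (∑ j, pl (insert i A) (a j) x ^ 2) ^ 2) =
        Ex fun x => (U x + 1 / 3 * W x) ^ 2 + 4 / 3 * V x ^ 2 := by
      rw [Ex_congr e1, Ex_add, Ex_sg_mul, add_zero]
      intro x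
      simp only [hU, hV, hW, pl_flp hi]
    have e4 : ∀ x, V x ^ 2 ≤ U x * W x := fun x =>
      sum_mul_sq_le_sq_mul_sq univ _ _
    have e5 : (Ex fun x => (U x + 1 / 3 * W x) ^ 2 + 4 / 3 * V x ^ 2) ≤
        Ex (fun x => U x ^ 2) + 2 * Ex (fun x => U x * W x) + 1 / 9 * Ex fun x => W x ^ 2 := by
      rw [← Ex_const_mul, ← Ex_const_mul, ← Ex_add, ← Ex_add]
      refine Ex_mono fun x => ?_
      nlinarith [e4 x]
    have hUW := Ex_mul_sq_le U W
    have h1 : (Ex fun x => U x ^ 2) ≤ (∑ S ∈ A.powerset, ∑ j, a j S ^ 2) ^ 2 := ih a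
    have h2 : (Ex fun x => W x ^ 2) ≤ (∑ S ∈ A.powerset, ∑ j, a j (insert i S) ^ 2) ^ 2 :=
      ih fun j S => a j (insert i S)
    rw [e3, sum_powerset_insert hi]
    refine e5.trans ?_
    set u := ∑ S ∈ A.powerset, ∑ j, a j S ^ 2 with hu
    set w := ∑ S ∈ A.powerset, ∑ j, a j (insert i S) ^ 2 with hw
    have hu0 : 0 ≤ u := sum_nonneg fun _ _ => sum_nonneg fun _ _ => sq_nonneg _
    have hw0 : 0 ≤ w := sum_nonneg fun _ _ => sum_nonneg fun _ _ => sq_nonneg _
    have h3 : 0 ≤ Ex fun x => U x ^ 2 := Ex_nonneg fun x => sq_nonneg _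
    have h4 : 0 ≤ Ex fun x => W x ^ 2 := Ex_nonneg fun x => sq_nonneg _
    have h5 : Ex (fun x => U x * W x) ≤ u * w := by
      refine le_of_sq_le_sq ?_ (mul_nonneg hu0 hw0)
      rw [mul_pow]
      exact hUW.trans (mul_le_mul h1 h2 h4 (sq_nonneg _))
    nlinarith [sq_nonneg w]

theorem sum_chi (x y : ι → Bool) :
    ∑ S : Finset ι, chi S x * chi S y = if x = y then (Fintype.card (ι → Bool) : ℝ) else 0 := by
  have h1 : ∑ S : Finset ι, chi S x * chi S y = ∏ i, (1 + sg (x i) * sg (y i)) := by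
    rw [prod_one_add, powerset_univ]
    refine sum_congr rfl fun S _ => ?_
    rw [chi, chi, prod_mul_distrib]
  rw [h1]
  split_ifs with h
  · subst h
    simp only [sg_mul_self]
    rw [prod_const, card_univ]
    simp
    norm_num
  · obtain ⟨i, hi⟩ := Function.ne_iff.1 h
    refine prod_eq_zero (mem_univ i) ?_
    have : y i = !x i := by
      cases hx : x i <;> cases hy : y i <;> simp_all
    rw [this, sg_not]
    have := sg_mul_self (x i)
    linarith

/-- Parseval's identity. -/
theorem parseval (f : (ι → Bool) → ℝ) : ∑ S : Finset ι, fc f S ^ 2 = Ex fun x => f x ^ 2 := by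
  have h0 : (Fintype.card (ι → Bool) : ℝ) ≠ 0 := by
    exact_mod_cast Fintype.card_ne_zero
  have h1 : ∀ S : Finset ι, fc f S ^ 2 =
      (∑ x, ∑ y, f x * f y * (chi S x * chi S y)) / (Fintype.card (ι → Bool) : ℝ) ^ 2 := by
    intro S
    rw [fc, Ex, div_pow, sq (∑ x, _), sum_mul_sum]
    congr 1
    refine sum_congr rfl fun x _ => sum_congr rfl fun y _ => ?_
    ring
  rw [sum_congr rfl fun S _ => h1 S, ← sum_div, sum_comm]
  have h2 : ∀ x, ∑ S : Finset ι, ∑ y, f x * f y * (chi S x * chi S y) =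
      f x ^ 2 * Fintype.card (ι → Bool) := by
    intro x
    rw [sum_comm]
    simp only [← mul_sum, sum_chi, mul_ite, mul_zero]
    rw [sum_ite_eq, if_pos (mem_univ _)]
    ring
  rw [sum_congr rfl fun x _ => h2 x, ← sum_mul, Ex]
  field_simp

end

/-- The vector valued lemma of Bonami. -/
theorem bonamiThm : BonamiThm := by
  intro ι J _ _ _ F
  have h1 := bonami_aux (univ : Finset ι) fun (j : J) S => fc (F j) S
  rw [powerset_univ, sum_comm] at h1
  simp only [parseval] at h1
  rw [Ex_sum]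
  refine le_trans (le_of_eq ?_) h1
  simp only [pl, powerset_univ]

end Vale.Agent.P325.K2.H25
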