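import Vale.Agent.P325.H111.K2.Stmts

/-!
# The structure theorem from the bounds for the high and the low degrees
-/

namespace Vale.Agent.P325.K2.H25

open Finset

theorem sqrt_sum_le {κ : Type} (s : Finset κ) (f : κ → ℝ) (hf : ∀ k, 0 ≤ f k) :
    Real.sqrt (∑ k ∈ s, f k) ≤ ∑ k ∈ s, Real.sqrt (f k) := by
  classical
  induction s using Finset.induction_on with
  | empty => simp
  | insert k s hk ih =>
    rw [sum_insert hk, sum_insert hk]
    have h1 : Real.sqrt (f k + ∑ k ∈ s, f k) ≤ Real.sqrt (f k) + Real.sqrt (∑ k ∈ s, f k) := by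
      rw [Real.sqrt_le_left (add_nonneg (Real.sqrt_nonneg _) (Real.sqrt_nonneg _)), add_sq,
        Real.sq_sqrt (hf k), Real.sq_sqrt (sum_nonneg fun k _ => hf k)]
      nlinarith [mul_nonneg (Real.sqrt_nonneg (f k)) (Real.sqrt_nonneg (∑ k ∈ s, f k))]
    linarith

/-- The expected size of the gradient is at most the energy. -/
theorem grad_le_energy {ι G : Type} [Fintype ι] [DecidableEq ι] [Fintype G]
    (grp : ι → G) (f : (ι → Bool) → ℝ) :
    (Ex fun x => Real.sqrt #(piv f x)) ≤ energy grp f := by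
  classical
  unfold energy
  refine Ex_mono fun x => ?_
  have h1 : (#(piv f x) : ℝ) = ∑ g, (#{i ∈ piv f x | grp i = g} : ℝ) := by
    have := card_eq_sum_card_fiberwise (s := piv f x) (t := univ) (f := grp)
      fun i _ => mem_coe.2 (mem_univ _)
    exact_mod_cast this
  rw [h1]
  exact sqrt_sum_le univ _ fun g => Nat.cast_nonneg _

theorem energy_nonneg {ι G : Type} [Fintype ι] [DecidableEq ι] [Fintype G]
    (grp : ι → G) (f : (ι → Bool) → ℝ) : 0 ≤ energy grp f :=
  Ex_nonneg fun _ => sum_nonneg fun _ _ => Real.sqrt_nonneg _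

/-- The structure theorem. -/
theorem structThm (hT : TailThm) (hL : LowThm) : StructThm := by
  classical
  obtain ⟨C1, hT⟩ := hT
  obtain ⟨C2, hC2, hL⟩ := hL
  intro E ε hε
  -- the degree
  set E' : ℝ := max E 0 with hE'
  have hE'0 : 0 ≤ E' := le_max_right _ _
  have hEE' : E ≤ E' := le_max_left _ _
  obtain ⟨m, hm⟩ := exists_nat_gt (2 * (|C1| * E') / ε)
  set k : ℕ := (m + 1) ^ 2 with hk
  have hk1 : 1 ≤ k := Nat.one_le_pow _ _ (Nat.succ_pos m)
  have hsk : Real.sqrt k = m + 1 := by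
    rw [hk]
    push_cast
    exact Real.sqrt_sq (by positivity)
  have hm0 : (0 : ℝ) < m + 1 := by positivity
  have hT1 : |C1| * E' / (m + 1) ≤ ε / 2 := by
    rw [div_le_iff₀ hm0]
    have := (div_lt_iff₀ hε).1 hm
    nlinarith
  -- the bound for the influences
  set B : ℝ := C2 * 12 ^ k * E' + 1 with hB
  have hB0 : 0 < B := by positivity
  set τ : ℝ := (ε / (2 * B)) ^ 2 with hτ
  have hτ0 : 0 < τ := by positivity
  have hsτ : Real.sqrt τ = ε / (2 * B) := Real.sqrt_sq (by positivity)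
  refine ⟨τ, hτ0, ?_⟩
  intro ι G _ _ _ _ grp f hf hE H hH
  have h1 : (∑ S : Finset ι, if k < #S then fc f S ^ 2 else 0) ≤ ε / 2 := by
    refine (hT ι f hf k hk1).trans (le_trans ?_ hT1)
    rw [hsk]
    refine div_le_div_of_nonneg_right ?_ hm0.le
    have h0 : 0 ≤ Ex fun x => Real.sqrt #(piv f x) := Ex_nonneg fun _ => Real.sqrt_nonneg _
    calc C1 * (Ex fun x => Real.sqrt #(piv f x))
        ≤ |C1| * (Ex fun x => Real.sqrt #(piv f x)) :=
          mul_le_mul_of_nonneg_right (le_abs_self _) h0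
      _ ≤ |C1| * E' := mul_le_mul_of_nonneg_left
          (((grad_le_energy grp f).trans hE).trans hEE') (abs_nonneg _)
  have h2 : (∑ S : Finset ι, if #S ≤ k then (#{i ∈ S | grp i ∈ H} : ℝ) * fc f S ^ 2 else 0) ≤
      ε / 2 := by
    refine (hL ι G grp f hf k τ hτ0.le H fun g hg => (hH g hg).le).trans ?_
    rw [hsτ]
    have h3 : C2 * 12 ^ k * energy grp f ≤ B := by
      have : C2 * 12 ^ k * energy grp f ≤ C2 * 12 ^ k * E' :=
        mul_le_mul_of_nonneg_left (hE.trans hEE') (by positivity)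
      linarith
    calc C2 * 12 ^ k * energy grp f * (ε / (2 * B)) ≤ B * (ε / (2 * B)) :=
          mul_le_mul_of_nonneg_right h3 (by positivity)
      _ = ε / 2 := by field_simp
  have h3 : Inf f {i | grp i ∈ H} ≤
      (∑ S : Finset ι, if k < #S then fc f S ^ 2 else 0) +
        ∑ S : Finset ι, if #S ≤ k then (#{i ∈ S | grp i ∈ H} : ℝ) * fc f S ^ 2 else 0 := by
    unfold Inf
    rw [← sum_add_distrib]
    refine sum_le_sum fun S _ => ?_
    have h0 : 0 ≤ fc f S ^ 2 := sq_nonneg _
    by_cases hS : k < #S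
    · rw [if_pos hS, if_neg (not_le.2 hS), add_zero]
      split_ifs
      · exact h0
      · exact le_rfl
    · rw [if_neg hS, if_pos (not_lt.1 hS), zero_add]
      split_ifs with hd
      · exact mul_nonneg (Nat.cast_nonneg _) h0
      · have h4 : 1 ≤ #{i ∈ S | grp i ∈ H} := by
          rw [not_disjoint_iff] at hd
          obtain ⟨i, hi, hi'⟩ := hd
          refine card_pos.2 ⟨i, mem_filter.2 ⟨hi, ?_⟩⟩
          simpa using hi'
        have h5 : (1 : ℝ) ≤ #{i ∈ S | grp i ∈ H} := by exact_mod_cast h4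
        nlinarith
  linarith

end Vale.Agent.P325.K2.H25
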